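import Vale.Agent.P168.Main
import Vale.Agent.P168.Po
import Vale.Agent.P168.Op
import Vale.Agent.P168.Base
import Vale.Agent.P168.Frz
import Vale.Agent.P168.Casc
import Vale.Agent.P168.Mecke
import Vale.Agent.P168.Cons
import Vale.Agent.P168.Step
import Vale.Agent.P168.Vth
import Vale.Agent.P168.Uth
import Vale.Agent.P168.App
import Vale.Agent.P168.Bridge
import Vale.Agent.P168.Key
import Vale.Agent.P168.Low
import Vale.Agent.P168.Up
import Vale.Agent.P168.Pos1
import Vale.Agent.P168.Pos2
import Vale.Agent.P168.Cont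
import Vale.Agent.P168.Ident
import Vale.Agent.P168.Exi
import Vale.Agent.P168.Apx
import Vale.Agent.P168.FinA
import Vale.Agent.P168.Cmp

open MeasureTheory Filter Topology Vale.Agent.P168

/-- The Mezard-Parisi formula. The lower bound holds for every integrable clause law. -/
theorem Vale.Agent.Results.P168.MezardParisi.result (K : ℕ) (hK : 2 ≤ K) (lam : ℝ)
    (hlam : 0 < lam) (μ : Measure (Clause K)) (ν : Measure ℝ) [IsProbabilityMeasure μ]
    [IsProbabilityMeasure ν] (hμ : Integrable (fun θ : Clause K => ‖θ‖) μ)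
    (hν : Integrable (fun h : ℝ => |h|) ν) :
    BddBelow (⋃ r, trial K lam μ ν r) ∧
    (∀ ε : ℝ, 0 < ε → ∀ᶠ N in atTop, (⨅ r, Phi K lam μ ν r) - ε ≤ pressure K lam μ ν N) ∧
    (Even K → InClass K μ →
      Tendsto (pressure K lam μ ν) atTop (𝓝 (⨅ r, Phi K lam μ ν r))) := by
  have hK1 : 1 ≤ K := by omega
  have hμ' : Integrable (fun θ : Clause K => θ) μ :=
    (integrable_norm_iff aestronglyMeasurable_id).1 hμ
  have hν' : Integrable (fun h : ℝ => h) ν :=
    (integrable_norm_iff aestronglyMeasurable_id).1 hν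
  have hCmp := cmpStmt poApi opApi bApi (cApi bApi) finStmt
  have hC := consStmt sApi
  have hLow := lowStmt poApi opApi bApi xApi (keyStmt poApi opApi bApi xApi
    (vStmt sApi xApi (meckeStmt xApi sApi) hC (stepStmt sApi hC)) (uStmt sApi xApi)
    (appStmt xApi) brStmt)
  have hlo := Mn.lower bApi hLow (exiStmt idStmt) hCmp lam μ ν hK1 hlam hμ' hν'
  refine ⟨(hCmp K lam μ ν hK1 hlam hμ' hν').1, hlo, fun he hcl => ?_⟩
  have hup := Mn.upper poApi opApi bApi (upStmt poApi opApi bApi) (posStmt bApi (ps1Stmt bApi))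
    (apxStmt idStmt (cApi bApi)) hCmp lam μ ν hK1 hlam hμ' hν' he hcl
  refine tendsto_order.2 ⟨fun a ha => ?_, fun a ha => ?_⟩
  · filter_upwards [hlo (((⨅ r, Phi K lam μ ν r) - a) / 2) (by linarith)] with N hN
    linarith
  · filter_upwards [eventually_ge_atTop 1] with N hN
    exact (hup N hN).trans_lt ha
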